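import Vale.Agent.P167.H433.PsDef

/-!
# P167, block ID, (P2S): paths of unit cells outside of a lattice polygon

`O p i`: the cell on the right of the side `i`. `cp_far`: it is joined to far cells by cells off the
polygon. `cp_arc`: the outer cells of two sides are joined along the arc which does not contain the
lowest, then leftmost vertex `T`, without crossing the ray below `T`.
-/

set_option autoImplicit false

namespace Vale.Agent.P167.H276

open Finset Relation
open Vale.Agent.P167.E6 (IsPolygon Encloses face dir)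
open Vale.Agent.P167.H825 (pdir)
open Vale.Agent.P167.Enl (pdir_step pdir_add)
open Vale.Agent.P167.N.ID (iT LowV lowV_iT Nrm bM le_bM clT)
open Vale.Agent.P167.H433 (CP NoX)

variable {l : ℕ} {p : ZMod l → ℤ × ℤ} {S : Finset (ℤ × ℤ)} {i j : ℕ} {a b : ℤ × ℤ}
  {G G' : ZMod l → Prop}

/-- A chain of a relation as a function. -/
theorem exists_path {α : Type*} {R : α → α → Prop} {a b : α} (h : ReflTransGen R a b) :
    ∃ (c : ℕ → α) (k : ℕ), c 0 = a ∧ c k = b ∧ ∀ i < k, R (c i) (c (i + 1)) := by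
  induction h with
  | refl => exact ⟨fun _ => a, 0, rfl, rfl, fun i hi => absurd hi (Nat.not_lt_zero i)⟩
  | @tail b b' _ hbb ih =>
    obtain ⟨c, k, h1, h2, h3⟩ := ih
    refine ⟨fun i => if i ≤ k then c i else b', k + 1, ?_, ?_, fun i hi => ?_⟩
    · simp [h1]
    · simp
    · rcases Nat.lt_or_ge i k with h4 | h4
      · simp only [if_pos h4.le, if_pos (Nat.succ_le_of_lt h4)]
        exact h3 i h4
      · obtain rfl : i = k := by omega
        simp only [le_refl, if_true, Nat.not_succ_le_self, if_false]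
        rw [h2]
        exact hbb

/-- The cell on the right of the side `i`. -/
def O (p : ZMod l → ℤ × ℤ) (i : ℕ) : ℤ × ℤ := face (p (i : ZMod l)) (pdir p i - 1)

theorem O_op (p : ZMod l → ℤ × ℤ) (i : ℕ) : Enl.op p 1 i 0 = O p i := by
  unfold Enl.op Enl.oz Enl.vz O
  simp

/-- Two cells at a vertex of the polygon, separated by a half line. -/
def RV (S : Finset (ℤ × ℤ)) (p : ZMod l → ℤ × ℤ) (G : ZMod l → Prop) (a b : ℤ × ℤ) : Prop :=
  a ∉ S ∧ b ∉ S ∧ ∃ j, G j ∧ ∃ t : Fin 4, (a = face (p j) t ∧ b = face (p j) (t + 1)) ∨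
    (b = face (p j) t ∧ a = face (p j) (t + 1))

theorem RV.symm (h : RV S p G a b) : RV S p G b a := by
  obtain ⟨h1, h2, j, h3, t, h4⟩ := h
  exact ⟨h2, h1, j, h3, t, h4.symm⟩

theorem rv_symm (h : ReflTransGen (RV S p G) a b) : ReflTransGen (RV S p G) b a := by
  induction h with
  | refl => exact ReflTransGen.refl
  | tail _ h ih => exact ReflTransGen.head h.symm ih

theorem face_back (v : ℤ × ℤ) (s : Fin 4) : face v (s - 1) = face (v + dir s) (s + 2) := by
  obtain ⟨x, y⟩ := v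
  fin_cases s <;> simp [face, dir]

theorem f32 (s : Fin 4) : s + 3 - 1 = s + 2 := by
  revert s
  decide
theorem f03 (s : Fin 4) : s ≠ s + 3 := by
  revert s
  decide
theorem f13 (s : Fin 4) : s + 1 ≠ s + 3 := by
  revert s
  decide
theorem fm1 (s : Fin 4) : s - 1 = s + 3 := by
  revert s
  decide
theorem f21 (s : Fin 4) : s + 3 = s + 2 + 1 := by
  revert s
  decide
theorem f31 (s : Fin 4) : s = s + 3 + 1 := by
  revert s
  decide
theorem f4 (s r : Fin 4) : r = s ∨ r = s + 1 ∨ r = s + 2 ∨ r = s + 3 := by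
  revert s r
  decide

section poly

variable (hp : IsPolygon p) (hD : Encloses p S)
include hp hD

/-- The outer cells are off the polygon. -/
theorem O_out (i : ℕ) : O p i ∉ S :=
  ((hD (p i) (pdir p i)).1 ⟨i, rfl, pdir_step hp i⟩).2

/-- **Around a vertex.** -/
theorem turn (i : ℕ) (hG : G ((i + 1 : ℕ) : ZMod l)) :
    ReflTransGen (RV S p G) (O p i) (O p (i + 1)) := by
  have h1 := pdir_step hp i
  have h2 := pdir_step hp (i + 1)
  have hO := O_out hp hD i
  have hO' := O_out hp hD (i + 1)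
  have e1 : O p i = face (p ((i + 1 : ℕ) : ZMod l)) (pdir p i + 2) := by
    unfold O
    rw [face_back, Nat.cast_succ, h1]
  obtain ⟨v, hv⟩ : ∃ v, v = p ((i + 1 : ℕ) : ZMod l) := ⟨_, rfl⟩
  obtain ⟨s, hs⟩ : ∃ s, s = pdir p i := ⟨_, rfl⟩
  obtain ⟨r, hr⟩ : ∃ r, r = pdir p (i + 1) := ⟨_, rfl⟩
  have e2 : O p (i + 1) = face v (r - 1) := by
    unfold O
    rw [← hv, ← hr]
  rw [← hv, ← hs] at e1
  rw [e1] at hO ⊢
  rw [e2] at hO' ⊢
  -- the cell between the two
  have key : r ≠ s + 3 → face v (s + 3) ∉ S := by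
    intro hne hin
    have h3 := (hD v (s + 3)).2 ⟨hin, by rwa [f32]⟩
    obtain ⟨j, hj, hj'⟩ := h3
    have h4 : j = ((i + 1 : ℕ) : ZMod l) := hp.2.1 (hj.trans hv)
    rw [h4, h2, ← hv, ← hr] at hj'
    exact hne (E2.add_dir_inj hj')
  have hback : r ≠ s + 2 := by
    intro hne
    have h3 : p (((i + 1 : ℕ) : ZMod l) + 1) = p (i : ZMod l) := by
      rw [h2, ← hr, hne, Nat.cast_succ, h1, ← hs, add_assoc]
      have : dir s + dir (s + 2) = (0 : ℤ × ℤ) := by fin_cases s <;> simp [dir]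
      rw [this, add_zero]
    have h4 := hp.2.1 h3
    push_cast at h4
    have h5 : ((2 : ℕ) : ZMod l) = 0 := by
      push_cast
      linear_combination h4
    rw [ZMod.natCast_eq_zero_iff] at h5
    have := Nat.le_of_dvd (by norm_num) h5
    have := hp.1
    omega
  have hcases : r = s + 3 ∨ r = s ∨ r = s + 1 := by
    have := f4 s r
    tauto
  rcases hcases with h | h | h
  · rw [h, f32]
  · have h6 : r ≠ s + 3 := by
      rw [h]
      exact f03 s
    have e3 : face v (r - 1) = face v (s + 3) := by rw [h, fm1]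
    rw [e3] at hO' ⊢
    refine ReflTransGen.single ⟨hO, hO', _, hG, s + 2, Or.inl ⟨by rw [hv], ?_⟩⟩
    rw [hv, ← f21]
  · have h6 : r ≠ s + 3 := by
      rw [h]
      exact f13 s
    have e3 : face v (r - 1) = face v s := by rw [h, add_sub_cancel_right]
    rw [e3] at hO' ⊢
    have h7 := key h6
    refine (ReflTransGen.single (b := face v (s + 3)) ⟨hO, h7, _, hG, s + 2,
      Or.inl ⟨by rw [hv], ?_⟩⟩).tail ⟨h7, hO', _, hG, s + 3, Or.inl ⟨by rw [hv], ?_⟩⟩
    · rw [hv, ← f21]
    · rw [hv, ← f31]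

/-- **Along an arc.** -/
theorem walk (i m : ℕ) (hG : ∀ j, i < j → j ≤ i + m → G ((j : ℕ) : ZMod l)) :
    ReflTransGen (RV S p G) (O p i) (O p (i + m)) := by
  induction m with
  | zero => exact ReflTransGen.refl
  | succ m ih =>
    refine (ih fun j h1 h2 => hG j h1 (by omega)).trans ?_
    exact turn hp hD (i + m) (hG _ (by omega) le_rfl)

end poly

/-- Neighbour cells. -/
def Adj (a b : ℤ × ℤ) : Prop :=
  b = a + (1, 0) ∨ a = b + (1, 0) ∨ b = a + (0, 1) ∨ a = b + (0, 1)

theorem Adj.symm (h : Adj a b) : Adj b a := by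
  unfold Adj at h ⊢
  tauto

theorem adj_face (v : ℤ × ℤ) (t : Fin 4) : Adj (face v t) (face v (t + 1)) := by
  unfold Adj
  fin_cases t
  · right
    left
    simp [face, add_assoc]
  · right
    right
    right
    simp [face, add_assoc]
  · left
    simp [face, add_assoc]
  · right
    right
    left
    simp [face, add_assoc]

theorem RV.adj (h : RV S p G a b) : Adj a b := by
  obtain ⟨-, -, j, -, t, ⟨rfl, rfl⟩ | ⟨rfl, rfl⟩⟩ := h
  · exact adj_face _ t
  · exact (adj_face _ t).symm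

/-- Neighbour cells off the set. -/
def RA (S : Finset (ℤ × ℤ)) (a b : ℤ × ℤ) : Prop := a ∉ S ∧ b ∉ S ∧ Adj a b

theorem ra_right {w : ℤ × ℤ} (h : ∀ v ∈ S, v.1 ≤ w.1) (m : ℕ) :
    ReflTransGen (RA S) (w.1 + 1, w.2) (w.1 + 1 + m, w.2) := by
  induction m with
  | zero => simpa using ReflTransGen.refl
  | succ m ih =>
    refine ih.tail ⟨fun hc => ?_, fun hc => ?_, Or.inl ?_⟩
    · have := h _ hc
      simp only at this
      omega
    · have := h _ hc
      simp only [Nat.cast_succ] at this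
      omega
    · simp [add_assoc]

/-- **CELLS (a).** The cell outside of a side is joined to far cells by cells off the polygon. -/
theorem cp_far [NeZero l] (hp : IsPolygon p) (hD : Encloses p S) (hi : i < l) (M : ℤ) :
    ∃ (c : ℕ → ℤ × ℤ) (k : ℕ), c 0 = Enl.op p 1 i 0 ∧ CP S c k ∧ M ≤ (c k).1 := by
  have h0 : (face (p ((i : ℕ) : ZMod l)) (pdir p i)) ∈ S :=
    ((hD (p i) (pdir p i)).1 ⟨i, rfl, pdir_step hp i⟩).1
  obtain ⟨w, hw, hmax⟩ := exists_max_image S (fun v => v.1) ⟨_, h0⟩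
  have h1 : (w.1 + 1, w.2) ∉ S := by
    intro hc
    have := hmax _ hc
    simp only at this
    omega
  obtain ⟨j, hj, hj'⟩ := (hD (w.1 + 1, w.2) 1).2 ⟨by simpa [face] using hw, by simpa [face] using h1⟩
  have ej : ((j.val : ℕ) : ZMod l) = j := ZMod.natCast_zmod_val j
  have h2 := pdir_step hp j.val
  rw [ej, hj', hj] at h2
  have h3 := E2.add_dir_inj h2
  have h4 : O p j.val = (w.1 + 1, w.2) := by
    unfold O
    rw [← h3, ej, hj]
    simp [face]
  have h5 : ReflTransGen (RV S p fun _ => True) (O p i) (O p j.val) := by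
    rcases le_total i j.val with h | h
    · have := walk (G := fun _ => True) hp hD i (j.val - i) fun _ _ _ => trivial
      rwa [Nat.add_sub_cancel' h] at this
    · have := walk (G := fun _ => True) hp hD j.val (i - j.val) fun _ _ _ => trivial
      rw [Nat.add_sub_cancel' h] at this
      exact rv_symm this
  have h6 : ReflTransGen (RA S) (O p i) (O p j.val) :=
    ReflTransGen.mono (fun a b h => ⟨h.1, h.2.1, h.adj⟩) _ _ h5
  rw [h4] at h6
  have h7 := h6.trans (ra_right (S := S) (w := w) hmax (M - w.1).toNat)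
  obtain ⟨c, k, c0, ck, hc⟩ := exists_path h7
  refine ⟨c, k, by rw [O_op, c0], ⟨fun m hm => ?_, fun m hm => (hc m hm).2.2⟩, ?_⟩
  · rcases Nat.lt_or_ge m k with h | h
    · exact (hc m h).1
    · obtain rfl : m = k := by omega
      rcases Nat.eq_zero_or_pos m with h' | h'
      · rw [h', c0]
        exact O_out hp hD i
      · have := (hc (m - 1) (by omega)).2.1
        rwa [Nat.sub_add_cancel h'] at this
  · rw [ck]
    show M ≤ w.1 + 1 + ((M - w.1).toNat : ℤ)
    omega

/-- A chain around the vertices as a path of cells. -/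
theorem cp_of_rv {T : ℤ × ℤ} (h : ReflTransGen (RV S p G) a b) (ha : a ∉ S)
    (ha' : ∃ j t, a = face (p j) t) (hT : ∀ j, G j → T.2 ≤ (p j).2 ∧ (T.2 = (p j).2 → T.1 ≠ (p j).1)) :
    ∃ (c : ℕ → ℤ × ℤ) (k : ℕ), c 0 = a ∧ c k = b ∧ CP S c k ∧ NoX T.1 T.2 c k ∧
      ∀ i ≤ k, ∃ j t, c i = face (p j) t := by
  obtain ⟨c, k, c0, ck, hc⟩ := exists_path h
  have hl : ∀ m ≤ k, c m ∉ S ∧ ∃ j t, c m = face (p j) t := by
    intro m hm
    rcases Nat.lt_or_ge m k with h | h
    · obtain ⟨h1, h2, j, h3, t, h4 | h4⟩ := hc m h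
      · exact ⟨h1, j, t, h4.1⟩
      · exact ⟨h1, j, t + 1, h4.2⟩
    · obtain rfl : m = k := by omega
      rcases Nat.eq_zero_or_pos m with h' | h'
      · rw [h', c0]
        exact ⟨ha, ha'⟩
      · obtain ⟨h1, h2, j, h3, t, h4⟩ := hc (m - 1) (by omega)
        rw [Nat.sub_add_cancel h'] at h2 h4
        rcases h4 with h4 | h4
        · exact ⟨h2, j, t + 1, h4.2⟩
        · exact ⟨h2, j, t, h4.1⟩
  refine ⟨c, k, c0, ck, ⟨fun m hm => (hl m hm).1, fun m hm => (hc m hm).adj⟩, fun m hm hne hmx => ?_,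
    fun m hm => (hl m hm).2⟩
  obtain ⟨h1, h2, j, h3, t, h4⟩ := hc m hm
  obtain ⟨h5, h6⟩ := hT j h3
  obtain ⟨v, hv⟩ : ∃ v, v = p j := ⟨_, rfl⟩
  rw [← hv] at h4 h5 h6
  obtain ⟨x, y⟩ := v
  obtain ⟨X, Y⟩ := T
  rcases h4 with ⟨h7, h8⟩ | ⟨h8, h7⟩
  · rw [h7, h8] at hne hmx
    rw [h7]
    fin_cases t <;> simp [face] at hne hmx h5 h6 ⊢ <;> omega
  · rw [h7, h8] at hne hmx
    rw [h7]
    fin_cases t <;> simp [face] at hne hmx h5 h6 ⊢ <;> omega

/-- **CELLS (b).** The cells outside of the sides `ia` and `0` are joined by cells off the polygon,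
along the arc without the lowest, then leftmost vertex. -/
theorem cp_arc [NeZero l] {ia : ℕ} (hp : IsPolygon p) (hD : Encloses p S) (hN : Nrm p) (h1 : 0 < ia)
    (h2 : ia < l) :
    ∃ (c : ℕ → ℤ × ℤ) (k : ℕ), c 0 = Enl.op p 1 ia 0 ∧ c k = Enl.op p 1 0 0 ∧ CP S c k ∧
      NoX (p (iT p)).1 (p (iT p)).2 c k ∧
      ∀ i ≤ k, (1 ≤ (c i).1 ∧ (c i).1 + 2 ≤ bM p) ∧ 1 ≤ (c i).2 ∧ (c i).2 + 2 ≤ bM p := by
  have hT := lowV_iT hp
  have hTl := hT.lt
  obtain ⟨G, hG⟩ : ∃ G : ZMod l → Prop, G = fun j => j ≠ ((iT p : ℕ) : ZMod l) := ⟨_, rfl⟩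
  have hGj : ∀ j : ℕ, j < l → j ≠ iT p → G ((j : ℕ) : ZMod l) := by
    intro j hj hne
    rw [hG]
    intro he
    rw [ZMod.natCast_eq_natCast_iff', Nat.mod_eq_of_lt hj, Nat.mod_eq_of_lt hTl] at he
    exact hne he
  have hw : ReflTransGen (RV S p G) (O p ia) (O p 0) := by
    by_cases hcl : clT p ia
    · have h3 := walk (G := G) hp hD ia (l - ia) ?_
      · rw [Nat.add_sub_cancel' h2.le] at h3
        have h4 : O p l = O p 0 := by
          unfold O
          rw [ZMod.natCast_self, Nat.cast_zero]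
          have := pdir_add (p := p) 0
          rw [Nat.zero_add] at this
          rw [this]
        rwa [h4] at h3
      · intro j hj hj'
        rcases Nat.lt_or_ge j l with h | h
        · refine hGj j h ?_
          have := hcl.2
          omega
        · obtain rfl : j = l := by omega
          rw [ZMod.natCast_self]
          have := hGj 0 (by omega) (by have := hcl.1; omega)
          rwa [Nat.cast_zero] at this
    · have h3 := walk (G := G) hp hD 0 ia ?_
      · rw [Nat.zero_add] at h3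
        exact rv_symm h3
      · intro j hj hj'
        refine hGj j (by omega) fun he => hcl ?_
        unfold clT
        omega
  have hc : ∀ j, G j → (p (iT p)).2 ≤ (p j).2 ∧ ((p (iT p)).2 = (p j).2 → (p (iT p)).1 ≠ (p j).1) := by
    intro j hj
    rw [hG] at hj
    rcases hT.le j with h | h
    · exact ⟨h.le, fun he => absurd he (by omega)⟩
    · exact ⟨h.1.le, fun _ he => hj (hp.2.1 (Prod.ext he.symm h.1.symm))⟩
  obtain ⟨c, k, c0, ck, hc, hX, hf⟩ := cp_of_rv (T := p (iT p)) hw (O_out hp hD ia) ⟨_, _, rfl⟩ hc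
  refine ⟨c, k, by rw [O_op, c0], by rw [O_op, ck], hc, hX, fun i hi => ?_⟩
  obtain ⟨j, t, hj⟩ := hf i hi
  have h3 := hN j
  have h4 := le_bM p j
  rw [hj]
  obtain ⟨v, hv⟩ : ∃ v, v = p j := ⟨_, rfl⟩
  rw [← hv] at h3 h4 ⊢
  obtain ⟨x, y⟩ := v
  fin_cases t <;> simp [face] at h3 h4 ⊢ <;> omega

end Vale.Agent.P167.H276
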